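import Crest.Agent.X212.Nk89.Lv
import Crest.Agent.X212.Pj41.Nkg

/-! X212/End3/Dec (helper3): bounds and exponential decay on a manifold with cylindrical ends. -/

set_option autoImplicit false
set_option linter.unusedSectionVars false
noncomputable section
open scoped Manifold ContDiff Topology InnerProductSpace
open MeasureTheory Set Function Filter Real

namespace Crest.Agent.X212.End3
open An An.Pre Sob92 Prm93 Mod61 Nd18 Cyf70 Nk89 Pj41
open Grp76 (Nice)

variable {E : Type} [NormedAddCommGroup E] [NormedSpace ℝ E] [FiniteDimensional ℝ E]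
  [MeasurableSpace E] [BorelSpace E]
  {HM : Type} [TopologicalSpace HM] {I : ModelWithCorners ℝ E HM} [I.Boundaryless]
  {M : Type} [TopologicalSpace M] [ChartedSpace HM M] [IsManifold I ∞ M]
  [MeasurableSpace M] [T2Space M] [BorelSpace M] [SecondCountableTopology M]
  {ι κ : Type} [Fintype ι] [Fintype κ] {lam : Type} [Fintype lam]
  {T : Type} [NormedAddCommGroup T] [NormedSpace ℝ T]
  {N N' : Type} [NormedAddCommGroup N] [NormedSpace ℝ N] [NormedAddCommGroup N'] [NormedSpace ℝ N']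

section gen
variable {F : Pre I M ι} {f : M → N} {θ : M → ℝ}

theorem cb_of_words (hf : Sm I f) (h : ∀ w, ∃ C, ∀ x, ‖F.Dw w f x‖ ≤ C) : F.Cb f := by
  choose c hc using h
  choose C hC using fun k => ((List.finite_length_le ι k).image c).bddAbove
  exact ⟨C, hf, fun k w hw x => (hc w x).trans (hC k ⟨w, hw, rfl⟩)⟩

theorem fl_of_dom (hθ : MemLp θ 2 F.μ) (j : ℕ) : ∀ {f : M → N}, Sm I f →
    (∀ w, ∃ C, ∀ x, ‖F.Dw w f x‖ ≤ C * θ x) → FL F j f := by
  have h0 : ∀ {f : M → N}, Sm I f → (∀ w, ∃ C, ∀ x, ‖F.Dw w f x‖ ≤ C * θ x) → MemLp f 2 F.μ :=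
    fun hf h => let ⟨C, hC⟩ := h []
      (hθ.const_mul C).mono' hf.continuous.aestronglyMeasurable (.of_forall hC)
  induction j with
  | zero => exact h0
  | succ j ih => exact fun hf h => ⟨h0 hf h, fun a => ih (F.sm_D hf a) fun w => h (a :: w)⟩

theorem nice_of_dom (hθ : MemLp θ 2 F.μ) (h1 : ∀ x, |θ x| ≤ 1) (hf : Sm I f)
    (h : ∀ w, ∃ C, ∀ x, ‖F.Dw w f x‖ ≤ C * θ x) : Nice F f :=
  ⟨cb_of_words hf fun w => let ⟨C, hC⟩ := h w; ⟨|C|, fun x => (hC x).trans ((le_abs_self _).trans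
    (by rw [abs_mul]; exact mul_le_of_le_one_right (abs_nonneg C) (h1 x)))⟩,
    fun j => fl_of_dom hθ j hf h⟩

theorem Dw_clm_on {O : Set M} (hO : IsOpen O) (L : N →L[ℝ] N') (w : List ι) :
    ∀ {f : M → N}, (∀ x ∈ O, FSm I f x) → ∀ x ∈ O,
      F.Dw w (fun x => L (f x)) x = L (F.Dw w f x) := by
  induction w with
  | nil => exact fun _ _ _ => rfl
  | cons a w ih =>
    intro f hf x hx
    exact (Dw_congr w ((hO.eventually_mem hx).mono fun y hy => dv_clm L (hf y hy).md)).trans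
      (ih (fun x hx => dv_smoothAt (F.sm a x) (hf x hx)) x hx)

theorem nice_ind {O : Set M} (hO : IsClopen O) (hf : Nice F f) : Nice F (O.indicator f) := by
  have := Nice.app (Eqv71.Cb_ind hO (Cb_const (F := F) (ContinuousLinearMap.id ℝ N))) hf
  convert this using 2 with x
  by_cases hx : x ∈ O <;> simp [hx]

end gen

section one
variable {𝔉 : Fam I M (Option κ) lam T} {P : End 𝔉} {ψ : M → ℝ} {δ R R' : ℝ}

theorem sg_sq (P : End 𝔉) (s : ℝ) : P.sg * (P.sg * s) = s := by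
  unfold End.sg; cases P.out <;> simp

theorem sg_cases (P : End 𝔉) : P.l = atTop ∧ P.sg = 1 ∨ P.l = atBot ∧ P.sg = -1 := by
  unfold End.sg End.l; cases P.out <;> simp

theorem U_mono (P : End 𝔉) (h : R ≤ R') : P.U R' ⊆ P.U R := fun _ hx => ⟨hx.1, h.trans_lt hx.2⟩

theorem isOpen_U (P : End 𝔉) (R : ℝ) : IsOpen (P.U R) :=
  P.K.ψ.open_target.inter (isOpen_lt continuous_const (continuous_const.mul P.K.cont))

theorem isOpen_hi (P : End 𝔉) (R : ℝ) : IsOpen {z : P.Y.M × ℝ | R < P.sg * z.2} :=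
  isOpen_lt continuous_const (by fun_prop)

variable (h : P.OK ψ δ R) (hR : R ≤ R')
include h hR

theorem mem_J {s : ℝ} (hs : R' ≤ P.sg * s) : s ∈ P.K.J := Dp_sub (by norm_num) (h.inf s (hR.trans hs))

theorem mem_src {z : P.Y.M × ℝ} (hz : R' < P.sg * z.2) : z ∈ P.K.ψ.source :=
  P.K.mem_src.2 (mem_J h hR hz.le)

theorem mem_U {z : P.Y.M × ℝ} (hz : R' < P.sg * z.2) : P.K.ψ z ∈ P.U R' :=
  ⟨P.K.ψ.map_source (mem_src h hR hz), by rwa [P.K.tm_ψ z (mem_src h hR hz)]⟩

theorem U_eq : P.U R' = P.K.ψ '' {z | R' < P.sg * z.2} :=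
  Subset.antisymm (fun _ hx => nk_image P.K (S := {s | R' < P.sg * s})
    (fun _ hs => mem_J h hR (le_of_lt hs)) hx.2) (forall_mem_image.2 fun _ hz => mem_U h hR hz)

theorem mem_U' {x : M} (hx : R' < P.sg * P.K.tm x) : x ∈ P.U R' :=
  ⟨P.K.tgt ▸ mem_J h hR hx.le, hx⟩

theorem band : IsCompact (P.K.tm ⁻¹' {s | R ≤ P.sg * s ∧ P.sg * s ≤ R'}) := by
  refine (Cht98.nck P.K).isCompact ((isCompact_Icc (a := -(|R| + |R'|))
    (b := |R| + |R'|)).of_isClosed_subset (isClosed_Icc.preimage (f := fun s => P.sg * s)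
      (by fun_prop)) fun t ht => ?_) fun s hs => mem_J h le_rfl hs.1
  have := abs_nonneg R; have := abs_nonneg R'; have := neg_abs_le R; have := le_abs_self R'
  rcases sg_cases P with k | k <;> simp only [k.2, mem_ofPred_eq] at ht <;> constructor <;> linarith

/-- derivatives on the end are derivatives on the cylinder -/
theorem Dw_end {f : M → N} {g : P.Y.M × ℝ → N} (e : ∀ z, R' < P.sg * z.2 → f (P.K.ψ z) = g z)
    (w : List (Option κ)) {z : P.Y.M × ℝ} (hz : R' < P.sg * z.2) :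
    𝔉.G0.F.Dw w f (P.K.ψ z) = P.D.Z.Dw w g z :=
  (P.K.rel.Dw (mem_src h hR hz) w
    (((isOpen_hi P R').eventually_mem hz).mono fun y hy => (e y hy).symm)).symm

omit hR in
theorem memLp_end {ε : ℝ} (hε : 0 < ε) :
    MemLp (fun x => exp (-ε * (P.sg * P.K.tm x))) 2 (𝔉.G0.F.μ.restrict (P.U R)) := by
  have hm : MeasurableSet {s : ℝ | R < P.sg * s} :=
    (isOpen_lt continuous_const (by fun_prop)).measurableSet
  have h1 : MemLp (fun s => exp (-ε * (P.sg * s))) 2 (volume.restrict {s : ℝ | R < P.sg * s}) := by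
    rw [memLp_two_iff_integrable_sq (by fun_prop : Continuous fun s =>
      exp (-ε * (P.sg * s))).aestronglyMeasurable]
    rcases sg_cases P with k | k <;> simp only [k.2, ← exp_nat_mul]
    · simpa [mul_assoc, Ioi, IntegrableOn] using
        integrableOn_exp_mul_Ioi (a := 2 * -ε) (by linarith) R
    · have : {s : ℝ | R < -1 * s} = Iio (-R) := by ext; simp [lt_neg]
      rw [this]
      simpa [mul_assoc, IntegrableOn] using
        (integrableOn_exp_mul_Iic (a := 2 * ε) (by linarith) (-R)).mono_set Iio_subset_Iic_self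
  have h2 := ((memLp_indicator_iff_restrict hm).2 h1).comp_snd P.D.F.μ
  have h3 := (memLp_pull (iso_symm P.K.iso) h2).restrict (P.U R)
  refine h3.ae_eq ((ae_restrict_iff' (isOpen_U P R).measurableSet).2 (.of_forall fun x hx => ?_))
  rw [pull_of_mem (φ := P.K.ψ.symm) hx.1, P.K.snd_symm hx.1]
  exact indicator_of_mem (s := {s : ℝ | R < P.sg * s}) hx.2 _

end one

variable {𝔉 : Fam I M (Option κ) lam T} {δ R' d : ℝ} (X : Ends 𝔉 δ) {f : M → N}

/-- the complement of the far ends is compact -/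
theorem core (hR : X.R ≤ R') : IsCompact (⋃ a, (X.P a).U R')ᶜ := by
  refine (X.cov.union (isCompact_iUnion fun a => band (X.okP a) hR)).of_isClosed_subset
    (isOpen_iUnion fun a => isOpen_U _ _).isClosed_compl fun x hx => ?_
  by_cases k : x ∈ ⋃ a, (X.P a).U X.R
  · obtain ⟨a, ha⟩ := mem_iUnion.1 k
    exact .inr (mem_iUnion.2 ⟨a, ha.2.le, not_lt.1 fun k' => hx (mem_iUnion.2 ⟨a, ha.1, k'⟩)⟩)
  · exact .inl k

theorem dom_of_ends (hR : X.R ≤ R') {θ : M → ℝ} (hθ : Continuous θ) (h0 : ∀ x, 0 < θ x)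
    (hf : Continuous f) (h : ∀ a, ∃ C, ∀ x ∈ (X.P a).U R', ‖f x‖ ≤ C * θ x) :
    ∃ C, ∀ x, ‖f x‖ ≤ C * θ x := by
  choose C hC using h
  obtain ⟨A, hA⟩ := (core X hR).exists_bound_of_continuousOn (f := fun x => ‖f x‖ / θ x)
    (hf.norm.div hθ fun x => (h0 x).ne').continuousOn
  obtain ⟨A', hA'⟩ := (finite_range C).bddAbove
  refine ⟨max A A', fun x => ?_⟩
  by_cases k : x ∈ ⋃ a, (X.P a).U R'
  · obtain ⟨a, ha⟩ := mem_iUnion.1 k
    exact (hC a x ha).trans (mul_le_mul_of_nonneg_right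
      ((hA' ⟨a, rfl⟩).trans (le_max_right _ _)) (h0 x).le)
  · exact (div_le_iff₀ (h0 x)).1 (((le_abs_self _).trans (hA x k)).trans (le_max_left _ _))

/-- **bounds**: a smooth function which is bounded on the far ends -/
theorem cb_of_bd (hR : X.R ≤ R') (hf : Sm I f) {g : ∀ a, (X.P a).Y.M × ℝ → N}
    (e : ∀ a z, R' < (X.P a).sg * z.2 → f ((X.P a).K.ψ z) = g a z)
    (h : ∀ a w, ∃ C, ∀ z, R' < (X.P a).sg * z.2 → ‖(X.P a).D.Z.Dw w (g a) z‖ ≤ C) :
    𝔉.F0.Cb f := by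
  refine X.wt.toWtP.Cb.2 (cb_of_words hf fun w => ?_)
  simpa using dom_of_ends X hR (continuous_const (y := (1 : ℝ))) (fun _ => one_pos)
    (sm_Dw hf w).continuous fun a => (h a w).imp fun C hC => by
      rw [U_eq (X.okP a) hR]
      exact forall_mem_image.2 fun z hz => by
        rw [Dw_end (X.okP a) hR (e a) w hz, mul_one]; exact hC z hz

theorem cb_of_lit (hR : X.R ≤ R') (hf : Sm I f) {g : ∀ a, (X.P a).Y.M × ℝ → N}
    (e : ∀ a z, R' < (X.P a).sg * z.2 → f ((X.P a).K.ψ z) = g a z)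
    (h : ∀ a, (X.P a).D.Z.Cb (g a)) : 𝔉.F0.Cb f :=
  cb_of_bd X hR hf e fun a w => let ⟨C, hC⟩ := h a; ⟨C _, fun z _ => hC.2 _ w le_rfl z⟩

theorem memLp_om (hd : δ < d) : MemLp (fun x => exp (-(d / δ) * X.ψ x)) 2 𝔉.F0.μ := by
  have c := X.wt.sm.continuous
  have hδ := X.δ0
  rw [memLp_two_iff_integrable_sq (by fun_prop : Continuous fun x =>
      exp (-(d / δ) * X.ψ x)).aestronglyMeasurable, X.wt.μ, wm,
    integrable_withDensity_iff_integrable_smul' (meas_w c) (.of_forall fun _ =>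
      ENNReal.ofReal_lt_top), ← integrableOn_univ, ← compl_union_self (⋃ a, (X.P a).U X.R)]
  simp only [ENNReal.toReal_ofReal (exp_pos _).le]
  refine .union (ContinuousOn.integrableOn_compact X.cov (by fun_prop))
    (integrableOn_finite_iUnion.2 fun a => ?_)
  have h1 := (memLp_end (X.okP a) (sub_pos.2 hd)).integrable_sq
  refine IntegrableOn.congr_fun h1 (fun x hx => ?_) (isOpen_U _ _).measurableSet
  simp only [(X.okP a).wt x hx, smul_eq_mul, ← exp_nat_mul, ← exp_add]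
  congr 1
  field_simp
  ring

/-- **decay**: a smooth function which decays exponentially on the far ends -/
theorem nice_of_dec (hd : δ < d) (hR : X.R ≤ R') (hf : Sm I f) {g : ∀ a, (X.P a).Y.M × ℝ → N}
    (e : ∀ a z, R' < (X.P a).sg * z.2 → f ((X.P a).K.ψ z) = g a z)
    (h : ∀ a w, ∃ C, ∀ z, R' < (X.P a).sg * z.2 →
      ‖(X.P a).D.Z.Dw w (g a) z‖ ≤ C * exp (-d * ((X.P a).sg * z.2))) : Nice 𝔉.F0.toPre f := by
  have c := X.wt.sm.continuous
  have hδ := X.δ0
  refine nice_of_dom (memLp_om X hd) (fun x => ?_) hf fun w => ?_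
  · rw [abs_of_pos (exp_pos _), exp_le_one_iff]
    exact mul_nonpos_of_nonpos_of_nonneg (neg_nonpos.2 (div_pos (hδ.trans hd) hδ).le) (X.ψ0 x)
  · rw [X.wt.toWtP.Dw]
    refine dom_of_ends X hR (by fun_prop) (fun _ => exp_pos _) (sm_Dw hf w).continuous fun a =>
      (h a w).imp fun C hC => ?_
    rw [U_eq (X.okP a) hR]
    refine forall_mem_image.2 fun z hz => ?_
    rw [Dw_end (X.okP a) hR (e a) w hz, (X.okP a).wt _ (U_mono _ hR (mem_U (X.okP a) hR hz)),
      (X.P a).K.tm_ψ z (mem_src (X.okP a) hR hz), ← mul_assoc, neg_mul, div_mul_cancel₀ _ hδ.ne']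
    exact hC z hz

end Crest.Agent.X212.End3
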