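import Crest.Agent.X212.Nk89.Lv
import Crest.Agent.X212.Pj41.Two

/-! X212/End3/Pt (helper3): END-PT, a configuration which decays in a gauge is a point. -/

set_option autoImplicit false
set_option linter.unusedSectionVars false
noncomputable section
open scoped Manifold ContDiff Topology InnerProductSpace
open MeasureTheory Set Function Filter

namespace Crest.Agent.X212.End3
open An An.Pre Sob92 Prm93 Mod61 Nd18 Eqv71 Nk89 Pj41
open Grp76 (Nice hs_iff)
open Wz78 (mem_g)

variable {E : Type} [NormedAddCommGroup E] [NormedSpace ℝ E] [FiniteDimensional ℝ E]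
  [MeasurableSpace E] [BorelSpace E]
  {HM : Type} [TopologicalSpace HM] {I : ModelWithCorners ℝ E HM} [I.Boundaryless]
  {M : Type} [TopologicalSpace M] [ChartedSpace HM M] [IsManifold I ∞ M]
  [MeasurableSpace M] [T2Space M] [BorelSpace M] [SecondCountableTopology M]
  {ι : Type} [Fintype ι] {lam : Type} [Fintype lam]
  {T : Type} [NormedAddCommGroup T] [NormedSpace ℝ T]

section loc
variable {B : Base M ι lam} {G : Geo I M ι lam} {m m' : Md M ι lam} {O : Set M} {x : M}

/-- the difference of two connections, cut to the bundle, is in `g` -/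
theorem sub_g (H : OKOn I B m O) {W W' : m.Cn} (C : ConnOn B G m W O) (C' : ConnOn B G m W' O)
    (hx : x ∈ O) (a : ι) : hsL ((W' a x - W a x) * m.p x) ∈ m.gS x := by
  have k : ∀ {s D R : En (Fin m.N)}, D + (W' a x * s - s * W' a x) = R →
      D + (W a x * s - s * W a x) = R → s * (W' a x - W a x) = (W' a x - W a x) * s :=
    fun h h' => by
      have := h.trans h'.symm
      rw [add_right_inj] at this
      rw [sub_mul, mul_sub, sub_eq_iff_eq_add.1 this]; abel
  have hp := k (C'.par a x hx) (C.par a x hx)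
  refine mem_g (ad_skew.1 ?_) (by rw [← mul_assoc, hp, mul_assoc, H.pidem x hx]) ?_ (fun b => ?_)
    fun s => ?_
  · rw [ContinuousLinearMap.mul_def, ad_comp, (H.prj hx).herm, ad_sub, ad_skew.2 (C'.sk a x hx),
      ad_skew.2 (C.sk a x hx), ← ContinuousLinearMap.mul_def, ← ContinuousLinearMap.mul_def, ← hp,
      ← mul_neg]
    congr 1; abel
  · rw [← mul_assoc, mul_sub, C.J a x hx, C'.J a x hx, ← sub_mul, mul_assoc, H.Jp x hx, mul_assoc]
  · rw [← mul_assoc, k (C'.comp a b x hx) (C.comp a b x hx), mul_assoc, mul_assoc, (H.cl x hx).pr,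
      (H.cl x hx).pl]
  · rw [← mul_assoc, k (C'.j a x hx s) (C.j a x hx s), mul_assoc, mul_assoc, H.jp hx, H.pj x hx]

/-- the covariant derivative of an isomorphism is `g`-valued -/
theorem cov_g (hG : G.F.P = B.P) (hO : IsOpen O) (H : OKOn I B m O) (H' : OKOn I B m' O)
    {u : M → CL m.V m'.V} (hu : Iso0 I m m' O u) {W : m.Cn} {W' : m'.Cn} (C : ConnOn B G m W O)
    (C' : ConnOn B G m' W' O) (hx : x ∈ O) {η : ι → m'.A}
    (e : ∀ a, η a = hsL (-(G.F.D a u x + W' a x ∘L u x - u x ∘L W a x) ∘L trn (u x))) :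
    (∀ a, η a ∈ m'.gS x) ∧ (∀ a, ∑ b, B.P a b x • η b = η a) ∧
      ∀ a, G.F.D a u x + (W' a x + opL (η a)) ∘L u x - u x ∘L W a x = 0 := by
  obtain ⟨h1, h2⟩ := conn_push hu hO H H' hG C
  have h3 : ∀ a, η a = hsL ((pshC G.F u W a x - W' a x) * m'.p x) := fun a => by
    rw [e, ← (hu.iso x hx).tgt, ad_trn, ContinuousLinearMap.mul_def,
      ← ContinuousLinearMap.comp_assoc, ← ContinuousLinearMap.neg_comp]
    congr 2
    rw [← sub_eq_zero, ← neg_eq_zero, ← h2 x hx a, ContinuousLinearMap.sub_comp]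
    abel
  refine ⟨fun a => h3 a ▸ sub_g H' C' h1 hx a, fun a => ?_, fun a => ?_⟩
  · simp only [h3, ← map_smul, ← map_sum, ← smul_mul_assoc, ← Finset.sum_mul, smul_sub,
      Finset.sum_sub_distrib, h1.proj a x hx, C'.proj a x hx]
  · rw [h3, opL_hsL, ← h2 x hx a, ContinuousLinearMap.add_comp, ContinuousLinearMap.mul_def,
      ContinuousLinearMap.comp_assoc, (hu.iso x hx).left, ContinuousLinearMap.sub_comp]
    abel

theorem pp_cs (H : m.OK I B) (ζ : ℂ) (v : m.V) :
    m.pp B x (cs m.J ζ v) = cs m.J ζ (m.pp B x v) := by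
  have e : ∀ a v, m.ρ a x (m.J v) = m.J (m.ρ a x v) := fun a v =>
    (DFunLike.congr_fun (H.Jρ a x) v).symm
  have e' : ∀ v, m.p x (m.J v) = m.J (m.p x v) := fun v => (DFunLike.congr_fun (H.Jp x) v).symm
  simp only [cs, Md.pp, Md.om, smul_apply, sub_apply, sum_apply, mul_apply_eq_comp, map_smul,
    map_sub, map_sum, map_add, e, e']

end loc

/-- **END-PT** -/
theorem pt {𝔉 : Fam I M ι lam T} (o : Ref 𝔉) : PtStmt o := by
  intro h r t c u ζ ht hc h0 hu nA nP
  have hO := h.Om.2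
  have iu : Iso0 I c.m o.m 𝔉.Om u := .of_mEq hO hu (OK.on hc.ok _) (OK.on o.ok _)
  have C' : o.m.IsConn 𝔉.B (𝔉.G t) (o.W t 0) :=
    isConn_W h ht contMDiff_const fun x a => zero_mem _
  have k := fun x hx => cov_g (h.G t ht).P hO (OK.on hc.ok _) (OK.on o.ok _) iu
    (IsConn.on hc.conn _) (IsConn.on C' _) (x := x) hx (η := fun a => gA o t c u x a)
    fun a => by rw [gA, indicator_of_mem hx]
  have hα : (fun x => idx (𝔉.Si t x) (.id ℝ _) (gA o t c u x)) ∈ Hs 𝔉.F0.toPre o.P1 := by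
    refine (hs_iff h).2 ⟨.app (Std94.Kl.idx (K := Std94.cbK 𝔉.F0.toPre)
      (fun a b => (h.sSi a b).cb t ht) (Cb_const _)) nA, fun x => ?_⟩
    by_cases hx : x ∈ 𝔉.Om
    · refine idx_of hx (fun a => ?_) fun a => ?_
      · rw [idx_apply]
        exact Submodule.sum_mem _ fun b _ => Submodule.smul_mem _ _ ((k x hx).1 b)
      · simp only [idx_apply, Finset.smul_sum, smul_smul]
        rw [Finset.sum_comm]
        simp only [← Finset.sum_smul, h.PSi t ht]
    · rw [gA, indicator_of_notMem hx, map_zero, map_zero]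
  have hφ : gP o c u ζ ∈ Hs 𝔉.F0.toPre o.Pp := by
    refine (hs_iff h).2 ⟨nP, fun x => ?_⟩
    rw [gP, map_sub, show o.Pp x (o.Φ0 x) = o.Φ0 x from o.pos x]
    by_cases hx : x ∈ 𝔉.Om'
    · rw [Ref.Pp, indicator_of_mem hx, indicator_of_mem hx, pp_cs o.ok, iu.pp (h.sub hx), hc.pos]
    · rw [indicator_of_notMem hx, map_zero]
  let y : Pnt o r := ⟨_, _, ((ζ : ℂ) ^ 2) • c.z, t, hα, hφ, ht⟩
  refine ⟨y, rfl, ⟨hu, fun x hx a => ?_, fun x hx => ?_, rfl⟩, fun _ => rfl, rfl⟩
  · have h2 : ∑ b, 𝔉.B.P a b x • o.W t y.α b x = o.W t y.α a x := (y.ad0 h).conn.cc.proj a x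
    have h3 : o.W t y.α a x = o.W t 0 a x + opL (gA o t c u x a) := by
      rw [← (k x hx).2.1 a]
      simp only [W_apply, y, idx_apply, Pi.zero_apply, PiLp.zero_apply, map_zero, smul_zero,
        Finset.sum_const_zero, add_zero, map_sum, map_smul, Finset.smul_sum, smul_smul,
        ContinuousLinearMap.id_apply, add_right_inj]
      rw [Finset.sum_comm]
      simp only [← Finset.sum_smul, h.SSi t ht]
    show (𝔉.G t).F.D a u x + (∑ b, 𝔉.B.P b a x • o.W t y.α b x) ∘L u x - u x ∘L c.W a x = 0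
    simp only [fun b => (h.B.pr x).symm b a]
    rw [h2, h3]
    exact (k x hx).2.2 a
  · show o.Φ0 x + gP o c u ζ x = cs o.m.J ζ (u x (c.Φ x))
    rw [gP, add_sub_cancel]
    by_cases hx' : x ∈ 𝔉.Om'
    · rw [indicator_of_mem hx']
    · rw [indicator_of_notMem hx', h0 x ⟨hx, hx'⟩, map_zero, cs_zero]

end Crest.Agent.X212.End3
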