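import Crest.Agent.X212.End3.Pt
import Crest.Agent.X212.End3.Dec
import Crest.Agent.X212.Spn45.Conn

/-! X212/End3/Pnt (helper3): END-PNT, an exponentially converging configuration is a point of a
literal reference. -/

set_option autoImplicit false
set_option linter.unusedSectionVars false
noncomputable section
open scoped Manifold ContDiff Topology InnerProductSpace
open MeasureTheory Set Function Filter Real

namespace Crest.Agent.X212.End3
open An An.Pre Sob92 Prm93 Mod61 Nd18 Cyf70 Nk89 Pj41 Eqv71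
open Grp76 (Nice)
open Tmp64 (AdmOn admOn_univ)

variable {E : Type} [NormedAddCommGroup E] [NormedSpace ℝ E] [FiniteDimensional ℝ E]
  [MeasurableSpace E] [BorelSpace E]
  {HM : Type} [TopologicalSpace HM] {I : ModelWithCorners ℝ E HM} [I.Boundaryless]
  {M : Type} [TopologicalSpace M] [ChartedSpace HM M] [IsManifold I ∞ M]
  [MeasurableSpace M] [T2Space M] [BorelSpace M] [SecondCountableTopology M]
  {ι κ : Type} [Fintype ι] [Fintype κ] {lam : Type} [Fintype lam]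
  {T : Type} [NormedAddCommGroup T] [NormedSpace ℝ T]

section gen
variable {B : Base M ι lam} {G : Geo I M ι lam}

theorem emb_trans {N₁ N₂ N₃ : ℕ} {J₁ : En (Fin N₁)} {J₂ : En (Fin N₂)} {J₃ : En (Fin N₃)}
    {i : CL (Eu (Fin N₁)) (Eu (Fin N₂))} {i' : CL (Eu (Fin N₂)) (Eu (Fin N₃))} (h : Emb J₁ J₂ i)
    (h' : Emb J₂ J₃ i') : Emb J₁ J₃ (i' ∘L i) :=
  ⟨by rw [ad_comp, ContinuousLinearMap.comp_assoc, ← ContinuousLinearMap.comp_assoc (ad i'),
      h'.iso]; exact h.iso,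
    by rw [← ContinuousLinearMap.comp_assoc, h'.J, ContinuousLinearMap.comp_assoc, h.J]; rfl,
    h'.sq, h'.sk⟩

theorem litAt_trans {c₁ c₂ c₃ : Cfg M ι lam 0} {i : CL c₁.m.V c₂.m.V} {i' : CL c₂.m.V c₃.m.V}
    {x : M} (h : LitAt c₂ c₁ i x x) (h' : LitAt c₃ c₂ i' x x) : LitAt c₃ c₁ (i' ∘L i) x x :=
  ⟨by rw [h'.p, h.p, cjL_comp]; rfl, fun b => by rw [h'.ρ, h.ρ, cjL_comp]; rfl,
    ContinuousLinearMap.ext fun s => by
      rw [h'.j, h.j]; exact (cjL_comp i' i _).symm,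
    fun b => by rw [h'.W, h.W, cjL_comp]; rfl, by rw [h'.Φ, h.Φ]; rfl⟩

theorem dA_emb {a b c : Type} [Fintype a] [Fintype b] [Fintype c] {i : CL (Eu b) (Eu c)}
    (hi : ad i ∘L i = 1) (D u : CL (Eu a) (Eu b)) (W : En b) (W' : En a) :
    (i ∘L D + cjL i W ∘L (i ∘L u) - (i ∘L u) ∘L W') ∘L trn (i ∘L u) =
      cjL i ((D + W ∘L u - u ∘L W') ∘L trn u) := by
  have ii : ∀ v, ad i (i v) = v := fun v => DFunLike.congr_fun hi v
  rw [← ad_trn, ← ad_trn, ad_comp]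
  ext1 v
  simp only [cjL_apply, ContinuousLinearMap.comp_apply, sub_apply, add_apply, map_sub, map_add, ii]

/-- a configuration is made literal over finitely many disjoint sets -/
theorem exists_lits (hG : G.F.P = B.P) {c : Cfg M ι lam 0} (hc : c.Adm B G) {A : Type} [Fintype A]
    {c₂ : A → Cfg M ι lam 0} {O : A → Set M} (h₂ : ∀ e, AdmOn (c₂ e) B G (O e))
    {u : ∀ e, M → CL c.m.V (c₂ e).m.V} (hu : ∀ e, Iso0 I c.m (c₂ e).m (O e) (u e))
    {h : A → M → ℝ} (hh : ∀ e, Sm I (h e)) (hs : ∀ e x, 0 < h e x → x ∈ O e)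
    (hd : Pairwise fun e e' => Disjoint (O e) (O e')) :
    ∃ (c' : Cfg M ι lam 0) (a : M → CL c.m.V c'.m.V), c'.Adm B G ∧ Iso0 I c.m c'.m univ a ∧
      ∀ e, ∃ i : CL (c₂ e).m.V c'.m.V, Emb (c₂ e).m.J c'.m.J i ∧
        ∀ x, 4 ≤ h e x → a x = i ∘L u e x ∧ LitAt c' (c₂ e) i x x := by
  classical
  suffices H : ∀ s : Finset A, ∃ (c' : Cfg M ι lam 0) (a : M → CL c.m.V c'.m.V), c'.Adm B G ∧
      Iso0 I c.m c'.m univ a ∧ ∀ e ∈ s, ∃ i : CL (c₂ e).m.V c'.m.V, Emb (c₂ e).m.J c'.m.J i ∧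
        ∀ x, 4 ≤ h e x → a x = i ∘L u e x ∧ LitAt c' (c₂ e) i x x from
    let ⟨c', a, k1, k2, k3⟩ := H Finset.univ; ⟨c', a, k1, k2, fun e => k3 e (Finset.mem_univ e)⟩
  intro s
  induction s using Finset.induction_on with
  | empty => exact ⟨c, _, hc, .refl (OK.on hc.ok _), fun _ h => absurd h (by simp)⟩
  | insert e s he ih =>
    obtain ⟨c₁, a₁, k1, k2, k3⟩ := ih
    obtain ⟨c', i₁, i₂, a, S, q1, q2, q3, q4, q5, q6, -⟩ := exists_lit hG k1 (h₂ e)
      (((k2.symm (OK.on hc.ok _) (OK.on k1.ok _)).mono (subset_univ _)).trans (hu e)) (hh e) (hs e)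
    refine ⟨c', _, q1, k2.trans q2, Finset.forall_mem_insert _ _ _ |>.2
      ⟨⟨i₂, S.e₂, fun x hx => ⟨?_, q6 x hx⟩⟩, fun e' he' => ?_⟩⟩
    · rw [q5 x (by linarith), ContinuousLinearMap.comp_assoc, ContinuousLinearMap.comp_assoc,
        (k2.iso x trivial).src, ((hu e).iso x (hs e x (by linarith))).idem]
    · obtain ⟨i, j1, j2⟩ := k3 e' he'
      refine ⟨_, emb_trans j1 S.e₁, fun x hx => ?_⟩
      have : h e x ≤ 0 := not_lt.1 fun k => disjoint_left.1 (hd (ne_of_mem_of_not_mem he' he))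
        (hs e' x (by linarith)) (hs e x k)
      refine ⟨?_, litAt_trans (j2 x hx).2 (q3 x (by linarith))⟩
      rw [q4 x (by linarith), ContinuousLinearMap.comp_assoc, (k2.iso x trivial).left, (j2 x hx).1]
      rfl

end gen

section one
variable {𝔉 : Fam I M (Option κ) lam T} {P : End 𝔉} {ψ : M → ℝ} {δ R R' : ℝ} {r : ℕ} {t : T}
  (h𝔉 : 𝔉.OK) (h : P.OK ψ δ R)
include h𝔉 h

/-- on the end the background does not depend on the parameter -/
theorem gRel (ht : t ∈ 𝔉.Q) : GRel 𝔉.B (𝔉.G t) 𝔉.B 𝔉.G0 id (P.U R) :=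
  ⟨⟨isOpen_U P R, (FRel.refl 𝔉.G0.F (isOpen_U P R)).ld, fun a x hx => by
      rw [mfderiv_id, h𝔉.mix t ht a x, h𝔉.e0, id, ← 𝔉.F0.P_e a x, h𝔉.P0]
      simp only [fun b => (h.S t ht x hx a b).1]; rfl⟩,
    fun _ _ _ _ => rfl, fun _ _ _ _ _ _ => rfl, fun _ _ => rfl, rfl, fun a x hx => h.a t ht x hx a⟩

omit h𝔉 in
theorem W_end (o : Ref 𝔉) [o.B0] (ht : t ∈ 𝔉.Q) {x : M} (hx : x ∈ P.U R) (a : Option κ) :
    o.W t 0 a x = o.A0 a x := by
  simp [W_apply, o.A_eq, Fam.W0, fun b => (h.S t ht x hx a b).1, (h.cf t ht x hx).1,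
    (h.cf t ht x hx).2, o.conn.cc.proj a x]

/-- the pull-back to the cylinder is admissible -/
theorem admOn_end (ht : t ∈ 𝔉.Q) {c : Cfg M (Option κ) lam r} (hc : Adm0 c 𝔉.B (𝔉.G t))
    (hR : R ≤ R') : AdmOn (cmC P.K.ψ (noz c)) P.D.B P.D.G {z | R' < P.sg * z.2} := by
  have h1 : (noz c).Adm 𝔉.B (𝔉.G t) := ⟨hc.ok, hc.conn, hc.sm, hc.pos, .inl rfl⟩
  have h2 := (gRel h𝔉 h ht).admOn_iff (c := noz c) |>.1 ((admOn_univ.2 h1).mono (subset_univ _))
  refine ((nk_gRel P.K).mono (isOpen_hi P R') fun z hz => mem_src h hR hz).admOn_iff.2 (h2.mono ?_)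
  rw [image_id, ← U_eq h hR]
  exact U_mono P hR

omit h𝔉 in
/-- the literal configuration on the end -/
theorem end_lit (hR : R ≤ R') {c : Cfg M (Option κ) lam r} {β : YC P.Y.M κ lam} (hβ : P.D.Adm β)
    {u : P.Y.M × ℝ → CL c.m.V β.m.V}
    (k : Iso0 (IC P.Y.I) (cmM P.K.ψ c.m) (cy β).m {z | R' < P.sg * z.2} u) :
    AdmOn (cmC (fun x => (P.K.ψ.symm x).1) β) 𝔉.B 𝔉.G0 (P.U R') ∧
      Iso0 I c.m (cmM (fun x => (P.K.ψ.symm x).1) β.m) (P.U R') fun x => u (P.K.ψ.symm x) := by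
  have o := isOpen_hi P R'
  have s : ∀ z ∈ {z : P.Y.M × ℝ | R' < P.sg * z.2}, P.K.ψ.symm (P.K.ψ z) = z := fun z hz =>
    P.K.ψ.left_inv (mem_src h hR hz)
  have g := (nk_gRel P.K).mono o fun z hz => mem_src h hR hz
  have k1 := k.congr o (u' := fun z => u (P.K.ψ.symm (P.K.ψ z))) fun z hz => congrArg u (s z hz)
  rw [U_eq h hR]
  refine ⟨g.admOn_iff.1 (admOn_same o (fun z hz => congrArg (β.m.p ·.1) (s z hz))
      (fun b z hz => congrArg (β.m.ρ b ·.1) (s z hz)) (fun z hz => congrArg (β.m.j ·.1) (s z hz))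
      ((admOn_univ.2 hβ.adm).mono (subset_univ _))
      (fun b z hz => congrArg (β.W b ·.1) (s z hz))
      (fun z hz => congrArg (β.Φ ·.1) (s z hz)) (.inl rfl)),
    g.fr.iso0_push ⟨k1.su, fun z hz => ?_, k1.J, fun z hz b => ?_, fun z hz t => ?_⟩⟩
  · dsimp only; rw [s z hz]; exact k.iso z hz
  · dsimp only; rw [s z hz]; exact k.ρ z hz b
  · dsimp only; rw [s z hz]; exact k.j z hz t

/-- the limit vanishes where the spinor is absent -/
theorem lim_zero (hR : R ≤ R') {c : Cfg M (Option κ) lam r} (h0 : ∀ x ∉ 𝔉.Om', c.Φ x = 0)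
    {β : YC P.Y.M κ lam} {u : P.Y.M × ℝ → CL c.m.V β.m.V} {ζ : Circle} {C d : ℝ} (hd : 0 < d)
    (e : ∀ z, R' < P.sg * z.2 → ‖YD.dP (P.K.pb c) β u ζ z‖ ≤ C * exp (-d * (P.sg * z.2)))
    {z : P.Y.M × ℝ} (hz : R' < P.sg * z.2) (hx : P.K.ψ z ∉ 𝔉.Om') : β.Φ z.1 = 0 := by
  have h1 : ∀ s ∈ Ioi R', R' < P.sg * ((z.1, P.sg * s) : P.Y.M × ℝ).2 := fun s hs => by
    rwa [sg_sq]
  have h2 : (fun s => P.K.ψ (z.1, P.sg * s)) '' Ioi R' ⊆ 𝔉.Om'ᶜ :=
    (isPreconnected_Ioi.image _ (P.K.ψ.continuousOn.comp (by fun_prop) fun s hs =>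
      mem_src h hR (h1 s hs))).subset_isClopen h𝔉.Om'.compl ⟨_, ⟨_, hz, rfl⟩, by
        show P.K.ψ (z.1, P.sg * (P.sg * z.2)) ∉ _
        rwa [sg_sq]⟩
  have h3 : Tendsto (fun s => C * exp (-d * s)) atTop (𝓝 (C * 0)) :=
    (tendsto_exp_atBot.comp (tendsto_id.const_mul_atTop_of_neg (neg_lt_zero.2 hd))).const_mul C
  rw [mul_zero] at h3
  refine norm_le_zero_iff.1 (ge_of_tendsto h3 ((eventually_gt_atTop R').mono fun s hs => ?_))
  have := e _ (h1 s hs)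
  rwa [YD.dP, show (P.K.pb c).Φ (z.1, P.sg * s) = 0 from h0 _ (h2 ⟨s, hs, rfl⟩), map_zero, cs_zero,
    zero_sub, norm_neg, sg_sq] at this

end one

variable {𝔉 : Fam I M (Option κ) lam T} {δ : ℝ} (X : Ends 𝔉 δ)

/-- **END-PNT** -/
theorem pnt : X.PntStmt := by
  intro r t c β ζ d ht hd hc h0 hβ hl
  have h := X.ok
  have H := X.okP
  choose u S hS hJ h1 h2 using hl
  -- one height for all ends
  obtain ⟨R, hR, hRS⟩ : ∃ R, X.R ≤ R ∧ ∀ a s, R ≤ (X.P a).sg * s → s ∈ S a := by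
    refine ((eventually_ge_atTop X.R).and (eventually_all.2 fun a => ?_)).exists
    rcases sg_cases (X.P a) with ⟨k1, k2⟩ | ⟨k1, k2⟩
    · obtain ⟨b, hb⟩ := mem_atTop_sets.1 (k1 ▸ hS a)
      exact (eventually_ge_atTop b).mono fun R h t ht => hb t (by rw [k2] at ht; linarith)
    · obtain ⟨b, hb⟩ := mem_atBot_sets.1 (k1 ▸ hS a)
      exact (eventually_ge_atTop (-b)).mono fun R h t ht => hb t (by rw [k2] at ht; linarith)
  have hR4 : X.R ≤ R + 4 := by linarith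
  have adm := fun a => admOn_end h (H a) ht hc hR
  have iu : ∀ a, Iso0 _ (cmM (X.P a).K.ψ c.m) (cy (β a)).m {z | R < (X.P a).sg * z.2} (u a) :=
    fun a => have s : {z : _ × ℝ | R < (X.P a).sg * z.2} ⊆ univ ×ˢ S a := fun z hz =>
        ⟨trivial, hRS a _ (le_of_lt hz)⟩
      have k := (h1 a).m
      .of_mEq (isOpen_hi _ R) ⟨k.su.mono s, fun x hx => k.uu x (s hx), fun x hx => k.uu' x (s hx),
        fun x hx => k.J x (s hx), fun x hx => k.ρ x (s hx), fun x hx => k.j x (s hx)⟩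
        (adm a).ok (OK.on (hβ a).adm.ok _)
  have dec : ∀ a k, ∃ C, ∀ z : (X.P a).Y.M × ℝ, R + 4 < (X.P a).sg * z.2 →
      (X.P a).D.Cls ((X.P a).K.pb c) (β a) (u a) (ζ a) (Ioo (z.2 - 1) (z.2 + 1)) k
        (C * exp (-d * ((X.P a).sg * z.2))) := fun a k => (h2 a k).imp fun C hC z hz => by
    have h3 := X.R0
    have : |z.2| = (X.P a).sg * z.2 := by
      rcases sg_cases (X.P a) with k | k <;> rw [k.2] at hz ⊢
      · rw [one_mul, abs_of_pos (by linarith)]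
      · rw [neg_one_mul, abs_of_neg (by linarith)]
    refine this ▸ hC z.2 fun s hs => hRS a s ?_
    rcases sg_cases (X.P a) with k | k <;> rw [k.2] at hz ⊢ <;> linarith [hs.1, hs.2]
  have mid : ∀ {a} (z : (X.P a).Y.M × ℝ), z ∈ univ ×ˢ Ioo (z.2 - 1) (z.2 + 1) := fun z =>
    ⟨trivial, by linarith, by linarith⟩
  -- the literal configuration
  have el := fun a => end_lit (H a) hR (c := c) (adm_ph (hβ a) (ζ a)⁻¹) (iu a)
  choose hf f1 f2 f3 using fun a => exists_height (K := fun _ : Unit => (X.P a).K)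
    (σ := fun _ => (X.P a).sg) (R := R) fun _ s hs => mem_J (H a) hR hs
  obtain ⟨c', a, k1, k2, k3⟩ := exists_lits h.G0.P
    (c := ⟨c.m, Spn45.can c.m 𝔉.G0, 0, 0⟩)
    ⟨hc.ok, Spn45.isConn_can h.B h.G0 hc.ok, contMDiff_const, fun _ => map_zero _, .inl rfl⟩
    (fun a => (el a).1) (fun a => (el a).2) f1
    (fun a x hx => (f2 a x hx).elim fun _ k => mem_U' (H a) hR k)
    fun a b k => (X.dis k).mono (U_mono _ hR) (U_mono _ hR)
  choose i i1 i2 using k3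
  have lit : ∀ e (z : (X.P e).Y.M × ℝ), R + 4 < (X.P e).sg * z.2 →
      a ((X.P e).K.ψ z) = i e ∘L u e z ∧
        LitAt c' (ph (ζ e)⁻¹ (β e)) (i e) ((X.P e).K.ψ z) z.1 := fun e z hz => by
    have s := mem_src (H e) hR4 hz
    obtain ⟨j1, j⟩ := i2 e _ (f3 e () _ (by rw [(X.P e).K.tm_ψ z s]; exact hz.le))
    rw [(X.P e).K.ψ.left_inv s] at j1
    refine ⟨j1, ?_⟩
    rw [show z.1 = ((X.P e).K.ψ.symm ((X.P e).K.ψ z)).1 by rw [(X.P e).K.ψ.left_inv s]]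
    exact ⟨j.p, j.ρ, j.j, j.W, j.Φ⟩
  have cb := fun e => exists_cbc.1 (exists_cbc_cy (adm_stab (adm_ph (hβ e) (ζ e)⁻¹) (i1 e)))
  let o : Ref 𝔉 :=
    { m := c'.m
      A0 := c'.W
      Φ0 := 𝔉.Om'.indicator c'.Φ
      ok := k1.ok
      conn := k1.conn
      cp := cb_of_lit X hR4 k1.ok.sp (fun e z hz => (lit e z hz).2.p) fun e => (cb e).1
      cρ b := cb_of_lit X hR4 (k1.ok.sρ b) (fun e z hz => (lit e z hz).2.ρ b) fun e => (cb e).2.1 b
      cj := cb_of_lit X hR4 k1.ok.sj (fun e z hz => (lit e z hz).2.j) fun e => (cb e).2.2.1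
      cA b := cb_of_lit X hR4 (fun x => k1.conn.cc.sm b x) (fun e z hz => (lit e z hz).2.W b)
        fun e => (cb e).2.2.2.1 b
      cΦ := Cb_ind h.Om' (cb_of_lit X hR4 k1.sm (fun e z hz => (lit e z hz).2.Φ)
        fun e => (cb e).2.2.2.2)
      pos x := by
        by_cases hx : x ∈ 𝔉.Om'
        · rw [indicator_of_mem hx, indicator_of_mem hx, k1.pos]
        · rw [indicator_of_notMem hx c'.Φ, map_zero] }
  have : o.B0 := ⟨rfl⟩
  have oW : ∀ e, ∀ t' ∈ 𝔉.Q, ∀ z : (X.P e).Y.M × ℝ, R + 4 < (X.P e).sg * z.2 → ∀ b,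
      o.W t' 0 b ((X.P e).K.ψ z) = cjL (i e) ((β e).W b z.1) := fun e t' ht' z hz b =>
    (W_end (H e) o ht' (U_mono _ hR4 (mem_U (H e) hR4 hz)) b).trans ((lit e z hz).2.W b)
  have sl : ∀ e, ∀ t' ∈ 𝔉.Q, ∀ s, R + 4 < s →
      (X.P e).sl o s t' = stab (ph (ζ e)⁻¹ (β e)) c'.m.J (i e) := fun e t' ht' s hs => by
    have hz : ∀ y, R + 4 < (X.P e).sg * ((y, (X.P e).sg * s) : (X.P e).Y.M × ℝ).2 := fun y => by
      rwa [sg_sq]
    rw [stab, Subsingleton.elim (ph (ζ e)⁻¹ (β e)).z 0]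
    refine cfg_ext (funext fun y => (lit e _ (hz y)).2.p)
      (funext fun b => funext fun y => (lit e _ (hz y)).2.ρ b) (funext fun y => (lit e _ (hz y)).2.j)
      (funext fun b => funext fun y => oW e t' ht' _ (hz y) b) (funext fun y => ?_)
    by_cases hx : (X.P e).pt s y ∈ 𝔉.Om'
    · exact (indicator_of_mem hx _).trans (lit e _ (hz y)).2.Φ
    · obtain ⟨C, hC⟩ := dec e 0
      have := lim_zero h (H e) hR4 h0 (X.δ0.trans hd)
        (fun z hz => (hC z hz).P [] le_rfl z (mid z)) (hz y) hx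
      refine (indicator_of_notMem hx _).trans ?_
      show 0 = i e (cs _ _ ((β e).Φ y))
      rw [show (β e).Φ y = 0 from this, cs_zero, map_zero]
  have C' : o.m.IsConn 𝔉.B (𝔉.G t) (o.W t 0) := isConn_W h ht contMDiff_const fun x a => zero_mem _
  have sa : Sm I a := fun x => k2.su x trivial
  have hi : ∀ {e} {z : (X.P e).Y.M × ℝ}, R + 4 < (X.P e).sg * z.2 → R < (X.P e).sg * z.2 :=
    fun hz => by linarith
  -- decay of the connection
  have nA : Nice 𝔉.F0.toPre (gA o t c a) := by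
    refine nice_ind h.Om (.fm fun b => nice_of_dec X hd hR4 (fun x => ?_)
      (g := fun e z => (-(hsL ∘L cjL (i e))) ((X.P e).D.dA ((X.P e).K.pb c) (β e) (u e) b z))
      (fun e z hz => ?_) fun e w => ?_)
    · have := FSm.cc (((dv_smoothAt ((𝔉.G t).F.sm b x) (sa x)).add
        (FSm.cc (C'.cc.sm b x) (sa x))).sub (FSm.cc (sa x) (hc.conn.cc.sm b x))) (FSm.ad (sa x))
      simp only [ad_trn] at this
      exact hsL.contMDiff.contMDiffAt.comp x this.neg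
    · have e1 : (𝔉.G t).F.D b a ((X.P e).K.ψ z) = i e ∘L (X.P e).D.Z.D b (u e) z := by
        refine ((gRel h (H e) ht).fr.D (U_mono _ hR4 (mem_U (H e) hR4 hz)) b (u := a) (u' := a)
          (.of_forall fun _ => rfl)).trans ?_
        refine (Dw_end (H e) hR4 (fun z hz => (lit e z hz).1) [b] hz).trans ?_
        exact dv_clm (ContinuousLinearMap.compL ℝ c.m.V _ _ (i e)) ((iu e).su z (hi hz)).md
      show hsL (-(((𝔉.G t).F.D b a _ + o.W t 0 b _ ∘L a _ - a _ ∘L c.W b _) ∘L trn (a _))) =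
        -hsL (cjL (i e) _)
      rw [map_neg, e1, oW e t ht z hz, (lit e z hz).1]
      exact congrArg (fun s => -hsL s) (dA_emb (i1 e).iso _ _ _ _)
    · obtain ⟨C, hC⟩ := dec e w.length
      refine ⟨‖-(hsL ∘L cjL (i e))‖ * C, fun z hz => ?_⟩
      rw [Dw_clm_on (isOpen_hi _ R) _ w (fun z hz => ?_) z (hi hz), mul_assoc]
      · exact (ContinuousLinearMap.le_opNorm _ _).trans
          (mul_le_mul_of_nonneg_left ((hC z hz).A b w le_rfl z (mid z)) (norm_nonneg _))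
      · have su := (iu e).su z hz
        have := FSm.cc (((dv_smoothAt ((X.P e).D.Z.sm b z) su).add (FSm.cc
          ((hβ e).adm.conn.cc.sm b z) su)).sub (FSm.cc su ((adm e).conn.sm b z hz))) (FSm.ad su)
        exact this.congr_of_eventuallyEq (.of_forall fun y => congrArg (_ ∘L ·) (ad_trn _).symm)
  -- decay of the spinor
  have nP : Nice 𝔉.F0.toPre (gP o c a 1) := by
    have : gP o c a 1 = 𝔉.Om'.indicator fun x => a x (c.Φ x) - c'.Φ x := funext fun x => by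
      by_cases hx : x ∈ 𝔉.Om' <;> simp [gP, o, hx]
    rw [this]
    refine nice_ind h.Om' (nice_of_dec X hd hR4 ((sa.clm_apply hc.sm).sub k1.sm)
      (g := fun e z => (i e ∘L csL (β e).m.J ((ζ e)⁻¹ : Circle))
        (YD.dP ((X.P e).K.pb c) (β e) (u e) (ζ e) z)) (fun e z hz => ?_) fun e w => ?_)
    · rw [(lit e z hz).1, (lit e z hz).2.Φ, YD.dP, map_sub]
      simp only [ContinuousLinearMap.comp_apply, csL_apply]
      rw [cs_mul (show (β e).m.J * (β e).m.J = -1 from (hβ e).adm.ok.Jsq), ← Circle.coe_mul,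
        inv_mul_cancel, Circle.coe_one, cs_one]
      rfl
    · obtain ⟨C, hC⟩ := dec e w.length
      refine ⟨‖i e ∘L csL (β e).m.J ((ζ e)⁻¹ : Circle)‖ * C, fun z hz => ?_⟩
      rw [Dw_clm_on (isOpen_hi _ R) _ w (fun z hz => ?_) z (hi hz), mul_assoc]
      · exact (ContinuousLinearMap.le_opNorm _ _).trans
          (mul_le_mul_of_nonneg_left ((hC z hz).P w le_rfl z (mid z)) (norm_nonneg _))
      · exact ((csL (β e).m.J (ζ e)).contMDiff.contMDiffAt.comp z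
          (((iu e).su z hz).clm_apply ((adm e).sm z hz))).sub ((hβ e).adm.sm z)
  obtain ⟨y, y1, y2, -⟩ := pt o h r t c a 1 ht hc (fun x hx => h0 x hx.2)
    ((k2.mono (subset_univ _)).mEq (OK.on hc.ok _) (OK.on k1.ok _)) nA nP
  refine ⟨o, R + 4, y, ⟨hR4, fun e => ⟨fun t' ht' s hs => ?_, fun t' ht' z => ?_⟩⟩, y1,
    ⟨a, 1, y1 ▸ y2⟩, fun _ _ => by rw [Ref.W, o.A_eq], fun e t' ht' => ?_⟩
  · rw [sl e t' ht' s hs, sl e t' ht' _ (by linarith)]
  · refine (oW e t' ht' _ (by rw [sg_sq]; linarith) none).trans ?_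
    rw [(hβ e).tmp, map_zero]
  · rw [sl e t' ht' _ (by linarith)]
    exact ⟨_, _, eqv_stab (hβ e) (H e).D (i1 e) (ζ e)⁻¹⟩

end Crest.Agent.X212.End3
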